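import Vale.Agent.P011.E6I.H675.Poly

/-!
Deformation of the intersection of two subspaces.
-/

open Polynomial Module

namespace Vale.Agent.P011.E6I.Dfm

variable {L : Type} [Field L] {M : Type} [AddCommGroup M] [Module L M]

theorem finrank_map_mkQ [FiniteDimensional L M] (V U : Submodule L M) :
    finrank L (U.map V.mkQ) + finrank L ↥(V ⊓ U) = finrank L U := by
  have h := LinearMap.finrank_range_add_finrank_ker (V.mkQ.domRestrict U)
  have h1 : LinearMap.range (V.mkQ.domRestrict U) = U.map V.mkQ := by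
    rw [LinearMap.range_domRestrict]
  have h2 : finrank L (LinearMap.ker (V.mkQ.domRestrict U)) = finrank L ↥(V ⊓ U) := by
    have h3 : LinearMap.ker (V.mkQ.domRestrict U) = V.comap U.subtype := by
      ext x
      simp
    rw [h3, ← Submodule.finrank_map_subtype_eq U (V.comap U.subtype), Submodule.map_comap_subtype,
      inf_comm]
  rw [h1, h2] at h
  exact h

variable {P : L → M →ₗ[L] M} {A : M → M} {R : L → M → M}

theorem P_zero (hP : ∀ s z, P s z = z + s • (A z + s • R s z)) (z : M) : P 0 z = z := by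
  rw [hP, zero_smul, add_zero]

theorem poly_P (hP : ∀ s z, P s z = z + s • (A z + s • R s z))
    (hR : ∀ z, Poly fun s => R s z) (z : M) : Poly fun s => P s z := by
  simp only [hP]
  exact (Poly.const z).add (Poly.id.smul ((Poly.const _).add (Poly.id.smul (hR z))))

/-- If the dimension of the intersection does not drop along the curve, the derivative maps the
intersection to the sum. -/
theorem deform_rank [FiniteDimensional L M] {V U : Submodule L M}
    (hP : ∀ s z, P s z = z + s • (A z + s • R s z)) (hR : ∀ z, Poly fun s => R s z) {S : Set L}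
    (hS : S.Infinite) (hinj : ∀ s ∈ S, Function.Injective (P s))
    (hd : ∀ s ∈ S, finrank L ↥(V ⊓ U) ≤ finrank L ↥(V ⊓ U.map (P s))) {x : M} (hx : x ∈ V ⊓ U) :
    A x ∈ V ⊔ U := by
  by_contra hA
  let b := finBasis L (U.map V.mkQ)
  have hb : ∀ i, ∃ u ∈ U, V.mkQ u = (b i : M ⧸ V) := fun i => (b i).2
  choose u hu hub using hb
  have hA' : V.mkQ (A x) ∉ U.map V.mkQ := by
    rintro ⟨z, hz, hzA⟩
    apply hA
    have h1 : A x - z ∈ V := by
      rw [← Submodule.Quotient.eq]
      exact hzA.symm
    have e : A x = (A x - z) + z := (sub_add_cancel _ _).symm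
    rw [e]
    exact Submodule.add_mem_sup h1 hz
  let e : L → Option (Fin (finrank L (U.map V.mkQ))) → M ⧸ V := fun s o =>
    o.elim (V.mkQ (A x + s • R s x)) fun i => V.mkQ (P s (u i))
  have he : ∀ o, Poly fun s => e s o := by
    rintro (_ | i)
    · exact ((Poly.const _).add (Poly.id.smul (hR x))).map V.mkQ
    · exact (poly_P hP hR (u i)).map V.mkQ
  have h0 : LinearIndependent L (e 0) := by
    rw [linearIndependent_option]
    have h1 : e 0 ∘ some = fun i => (b i : M ⧸ V) := by
      funext i
      change V.mkQ (P 0 (u i)) = _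
      rw [P_zero hP, hub]
    have h2 : e 0 none = V.mkQ (A x) := by
      change V.mkQ (A x + (0 : L) • R 0 x) = _
      rw [zero_smul, add_zero]
    refine ⟨?_, ?_⟩
    · rw [h1]
      exact b.linearIndependent.map' (Submodule.subtype _) (Submodule.ker_subtype _)
    · rw [h1, h2]
      intro h4
      apply hA'
      have h5 : Submodule.span L (Set.range fun i => (b i : M ⧸ V)) ≤ U.map V.mkQ := by
        rw [Submodule.span_le]
        rintro _ ⟨i, rfl⟩
        exact (b i).2
      exact h5 h4
  have hfin := finite_not_linearIndependent he h0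
  obtain ⟨s, hsS, hs⟩ := (hS.sdiff (hfin.union (Set.finite_singleton (0 : L)))).nonempty
  have hsLI : LinearIndependent L (e s) := by
    by_contra h
    exact hs (Or.inl h)
  have hs0 : s ≠ 0 := fun h => hs (Or.inr h)
  -- the family lies in the image of `U`
  have hmem : ∀ o, e s o ∈ (U.map (P s)).map V.mkQ := by
    rintro (_ | i)
    · have h1 : V.mkQ (P s x) = s • V.mkQ (A x + s • R s x) := by
        have h2 : V.mkQ x = 0 := (Submodule.Quotient.mk_eq_zero V).mpr hx.1
        rw [hP, map_add, h2, zero_add, map_smul]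
      have h3 : e s none = s⁻¹ • V.mkQ (P s x) := by
        rw [h1, smul_smul, inv_mul_cancel₀ hs0, one_smul]
        rfl
      rw [h3]
      exact Submodule.smul_mem _ _ (Submodule.mem_map_of_mem (Submodule.mem_map_of_mem hx.2))
    · exact Submodule.mem_map_of_mem (Submodule.mem_map_of_mem (hu i))
  have hcard : Fintype.card (Option (Fin (finrank L (U.map V.mkQ)))) ≤
      finrank L ((U.map (P s)).map V.mkQ) := by
    have h1 : LinearIndependent L (fun o => (⟨e s o, hmem o⟩ : (U.map (P s)).map V.mkQ)) := by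
      apply LinearIndependent.of_comp (Submodule.subtype _)
      exact hsLI
    exact h1.fintype_card_le_finrank
  rw [Fintype.card_option, Fintype.card_fin] at hcard
  have h1 := finrank_map_mkQ V U
  have h2 := finrank_map_mkQ V (U.map (P s))
  have h3 : finrank L (U.map (P s)) = finrank L U :=
    (Submodule.equivMapOfInjective _ (hinj s hsS) U).finrank_eq.symm
  have h4 := hd s hsS
  omega

/-- The sum stays everything along the curve. -/
theorem deform_top [FiniteDimensional L M] {V U : Submodule L M}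
    (hP : ∀ s z, P s z = z + s • (A z + s • R s z)) (hR : ∀ z, Poly fun s => R s z)
    (hVU : V ⊔ U = ⊤) : {s | V ⊔ U.map (P s) ≠ ⊤}.Finite := by
  let b := finBasis L (M ⧸ V)
  have hb : ∀ i, ∃ u ∈ U, V.mkQ u = b i := by
    intro i
    obtain ⟨m, hm⟩ := V.mkQ_surjective (b i)
    have hmT : m ∈ V ⊔ U := by rw [hVU]; exact Submodule.mem_top
    obtain ⟨v, hv, z, hz, rfl⟩ := Submodule.mem_sup.mp hmT
    refine ⟨z, hz, ?_⟩
    rw [← hm, map_add]
    have : V.mkQ v = 0 := (Submodule.Quotient.mk_eq_zero V).mpr hv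
    rw [this, zero_add]
  choose u hu hub using hb
  have he : ∀ i, Poly fun s => V.mkQ (P s (u i)) := fun i => (poly_P hP hR (u i)).map V.mkQ
  have h0 : LinearIndependent L (fun i => V.mkQ (P 0 (u i))) := by
    have h1 : (fun i => V.mkQ (P 0 (u i))) = b := by
      funext i
      rw [P_zero hP, hub]
    rw [h1]
    exact b.linearIndependent
  refine (finite_not_linearIndependent (e := fun s i => V.mkQ (P s (u i))) he h0).subset ?_
  intro s hs
  by_contra hLI
  have hLI' : LinearIndependent L (fun i => V.mkQ (P s (u i))) := not_not.mp hLI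
  apply hs
  have h1 : Submodule.span L (Set.range fun i => V.mkQ (P s (u i))) = ⊤ :=
    hLI'.span_eq_top_of_card_eq_finrank' (by rw [Fintype.card_fin])
  have h2 : (U.map (P s)).map V.mkQ = ⊤ := by
    rw [eq_top_iff, ← h1, Submodule.span_le]
    rintro _ ⟨i, rfl⟩
    exact Submodule.mem_map_of_mem (Submodule.mem_map_of_mem (hu i))
  rw [eq_top_iff]
  intro m _
  have h3 : V.mkQ m ∈ (U.map (P s)).map V.mkQ := by rw [h2]; exact Submodule.mem_top
  obtain ⟨z, hz, hzm⟩ := h3
  have h4 : m - z ∈ V := by
    rw [← Submodule.Quotient.eq]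
    exact hzm.symm
  rw [← sub_add_cancel m z]
  exact Submodule.add_mem_sup h4 hz

/-- A polynomial curve in the intersections. -/
theorem deform_curve [FiniteDimensional L M] {V U : Submodule L M}
    (hP : ∀ s z, P s z = z + s • (A z + s • R s z)) (hR : ∀ z, Poly fun s => R s z)
    (hVU : V ⊔ U = ⊤) {v : M} (hv : v ∈ V ⊓ U) {w : M} (hw : w ∈ U) (hAw : A v - w ∈ V) :
    ∃ r : L → M, Poly r ∧ (∀ s, v + s • r s ∈ V ⊓ U.map (P s)) ∧
      ∃ κ : L, ∃ x ∈ V ⊓ U, r 0 = κ • v + (A v - w) + x := by
  classical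
  let b := finBasis L (M ⧸ V)
  have hb : ∀ i, ∃ u ∈ U, V.mkQ u = b i := by
    intro i
    obtain ⟨m, hm⟩ := V.mkQ_surjective (b i)
    have hmT : m ∈ V ⊔ U := by rw [hVU]; exact Submodule.mem_top
    obtain ⟨v, hv, z, hz, rfl⟩ := Submodule.mem_sup.mp hmT
    refine ⟨z, hz, ?_⟩
    rw [← hm, map_add]
    have : V.mkQ v = 0 := (Submodule.Quotient.mk_eq_zero V).mpr hv
    rw [this, zero_add]
  choose u hu hub using hb
  have hv0 : V.mkQ v = 0 := (Submodule.Quotient.mk_eq_zero V).mpr hv.1
  let G : L → Matrix (Fin (finrank L (M ⧸ V))) (Fin (finrank L (M ⧸ V))) L :=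
    fun s => Matrix.of fun i j => b.coord i (V.mkQ (P s (u j)))
  let β : L → Fin (finrank L (M ⧸ V)) → L := fun s i => b.coord i (V.mkQ (A v + s • R s v))
  have hG : ∀ i j, Poly fun s => G s i j := fun i j =>
    ((poly_P hP hR (u j)).map V.mkQ).map (b.coord i)
  have hβ : ∀ i, Poly fun s => β s i := fun i =>
    (((Poly.const _).add (Poly.id.smul (hR v))).map V.mkQ).map (b.coord i)
  have hG0 : G 0 = 1 := by
    ext i j
    change b.coord i (V.mkQ (P 0 (u j))) = _
    rw [P_zero hP, hub, Basis.coord_apply, Basis.repr_self, Finsupp.single_apply,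
      Matrix.one_apply]
    simp only [eq_comm]
  obtain ⟨δ', hδ', hδ⟩ := (Poly.det hG).exists_one_add (by rw [hG0, Matrix.det_one])
  let c : L → Fin (finrank L (M ⧸ V)) → L := fun s => (G s).adjugate.mulVec (β s)
  have hc : ∀ i, Poly fun s => c s i := by
    intro i
    have e : ∀ s, c s i = ∑ j ∈ Finset.univ, (G s).adjugate i j * β s j := fun s => rfl
    simp only [e]
    exact Poly.sum _ fun j _ => (Poly.adjugate hG i j).mul (hβ j)
  let y : L → M := fun s => ∑ j ∈ Finset.univ, c s j • u j
  have hPy : ∀ s, P s (y s) = ∑ j ∈ Finset.univ, c s j • P s (u j) := by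
    intro s
    simp only [y, map_sum, map_smul]
  have hyU : ∀ s, y s ∈ U := fun s =>
    Submodule.sum_mem _ fun j _ => Submodule.smul_mem _ _ (hu j)
  refine ⟨fun s => δ' s • v + (1 + s * δ' s) • (A v + s • R s v) - P s (y s), ?_, ?_, ?_⟩
  · simp only [hPy]
    exact ((hδ'.smul (Poly.const v)).add (((Poly.const 1).add (Poly.id.mul hδ')).smul
      ((Poly.const _).add (Poly.id.smul (hR v))))).sub
      (Poly.sum _ fun j _ => (hc j).smul (poly_P hP hR (u j)))
  · intro s
    have e : v + s • (δ' s • v + (1 + s * δ' s) • (A v + s • R s v) - P s (y s)) =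
        P s ((1 + s * δ' s) • v - s • y s) := by
      rw [map_sub, map_smul, map_smul, hP s v]
      module
    have e2 : v + s • (δ' s • v + (1 + s * δ' s) • (A v + s • R s v) - P s (y s)) =
        (1 + s * δ' s) • v + s • ((1 + s * δ' s) • (A v + s • R s v) - P s (y s)) := by
      module
    refine ⟨?_, ?_⟩
    · rw [e2]
      refine V.add_mem (V.smul_mem _ hv.1) (V.smul_mem _ ?_)
      rw [← Submodule.Quotient.mk_eq_zero, ← Submodule.mkQ_apply, map_sub, map_smul, sub_eq_zero]
      apply b.ext_elem
      intro i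
      have h1 : b.repr (V.mkQ (P s (y s))) i = ((G s).mulVec (c s)) i := by
        rw [hPy, map_sum, map_sum, Finset.sum_apply']
        rw [Matrix.mulVec, dotProduct]
        refine Finset.sum_congr rfl fun j _ => ?_
        rw [map_smul, map_smul, Finsupp.smul_apply, smul_eq_mul, mul_comm]
        rfl
      rw [h1, map_smul, Finsupp.smul_apply]
      change (1 + s * δ' s) • β s i = ((G s).mulVec ((G s).adjugate.mulVec (β s))) i
      rw [Matrix.mulVec_mulVec, Matrix.mul_adjugate, ← hδ, Matrix.smul_mulVec, Matrix.one_mulVec,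
        Pi.smul_apply]
    · rw [e]
      exact Submodule.mem_map_of_mem (U.sub_mem (U.smul_mem _ hv.2) (U.smul_mem _ (hyU s)))
  · have hy0 : y 0 = ∑ j ∈ Finset.univ, β 0 j • u j := by
      change ∑ j ∈ Finset.univ, ((G 0).adjugate.mulVec (β 0)) j • u j = _
      rw [hG0, Matrix.adjugate_one, Matrix.one_mulVec]
    refine ⟨δ' 0, w - y 0, ⟨?_, U.sub_mem hw (hyU 0)⟩, ?_⟩
    · change w - y 0 ∈ V
      rw [← Submodule.Quotient.mk_eq_zero, ← Submodule.mkQ_apply, map_sub, sub_eq_zero]
      have h1 : V.mkQ w = V.mkQ (A v) := by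
        symm
        rw [← sub_eq_zero, ← map_sub]
        exact (Submodule.Quotient.mk_eq_zero V).mpr hAw
      rw [h1, hy0, map_sum]
      simp only [map_smul, hub]
      apply b.ext_elem
      intro i
      rw [b.repr_sum_self]
      change _ = b.coord i (V.mkQ (A v + (0 : L) • R 0 v))
      rw [zero_smul, add_zero]
      rfl
    · change δ' 0 • v + (1 + 0 * δ' 0) • (A v + (0 : L) • R 0 v) - P 0 (y 0) = _
      rw [P_zero hP, zero_mul, add_zero, one_smul, zero_smul, add_zero]
      abel

end Vale.Agent.P011.E6I.Dfm
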