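import Mathlib

/-!
Polynomial functions of one variable with values in a vector space.
-/

open Polynomial Module

namespace Vale.Agent.P011.E6I.Dfm

variable {L : Type} [Field L] {W W' W₂ : Type} [AddCommGroup W] [Module L W] [AddCommGroup W']
  [Module L W'] [AddCommGroup W₂] [Module L W₂]

/-- The function of one variable is polynomial. -/
def Poly (r : L → W) : Prop := ∀ φ : Dual L W, ∃ p : L[X], ∀ s, φ (r s) = p.eval s

theorem Poly.const (w : W) : Poly (fun _ : L => w) := fun φ => ⟨C (φ w), fun s => by simp⟩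

theorem Poly.id : Poly (fun s : L => s) := fun φ => ⟨C (φ 1) * X, fun s => by
  have h : φ s = s * φ 1 := by
    have := φ.map_smul s 1
    rwa [smul_eq_mul, mul_one, smul_eq_mul] at this
  rw [h, eval_mul, eval_C, eval_X, mul_comm]⟩

theorem Poly.add {r r' : L → W} (h : Poly r) (h' : Poly r') : Poly fun s => r s + r' s := by
  intro φ
  obtain ⟨p, hp⟩ := h φ
  obtain ⟨p', hp'⟩ := h' φ
  exact ⟨p + p', fun s => by rw [map_add, hp, hp', eval_add]⟩

theorem Poly.neg {r : L → W} (h : Poly r) : Poly fun s => -r s := by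
  intro φ
  obtain ⟨p, hp⟩ := h φ
  exact ⟨-p, fun s => by rw [map_neg, hp, eval_neg]⟩

theorem Poly.sub {r r' : L → W} (h : Poly r) (h' : Poly r') : Poly fun s => r s - r' s := by
  simp only [sub_eq_add_neg]
  exact h.add h'.neg

theorem Poly.exists_eval {f : L → L} (h : Poly f) : ∃ p : L[X], ∀ s, f s = p.eval s :=
  h LinearMap.id

theorem poly_of_eval (p : L[X]) : Poly fun s => p.eval s := by
  intro φ
  refine ⟨C (φ 1) * p, fun s => ?_⟩
  have h : φ (p.eval s) = p.eval s * φ 1 := by
    have := φ.map_smul (p.eval s) 1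
    rwa [smul_eq_mul, mul_one, smul_eq_mul] at this
  rw [h, eval_mul, eval_C, mul_comm]

theorem poly_of_eq {f : L → L} {p : L[X]} (h : ∀ s, f s = p.eval s) : Poly f := by
  have : f = fun s => p.eval s := funext h
  rw [this]
  exact poly_of_eval p

theorem Poly.smul {f : L → L} {r : L → W} (hf : Poly f) (h : Poly r) :
    Poly fun s => f s • r s := by
  intro φ
  obtain ⟨q, hq⟩ := hf.exists_eval
  obtain ⟨p, hp⟩ := h φ
  exact ⟨q * p, fun s => by rw [map_smul, smul_eq_mul, hq, hp, eval_mul]⟩

theorem Poly.mul {f g : L → L} (hf : Poly f) (hg : Poly g) : Poly fun s => f s * g s :=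
  hf.smul hg

theorem Poly.pow {f : L → L} (hf : Poly f) (n : ℕ) : Poly fun s => f s ^ n := by
  induction n with
  | zero =>
    simp only [pow_zero]
    exact Poly.const 1
  | succ n ih =>
    simp only [pow_succ]
    exact ih.mul hf

theorem Poly.sum {ι : Type} (t : Finset ι) {r : ι → L → W} (h : ∀ i ∈ t, Poly (r i)) :
    Poly fun s => ∑ i ∈ t, r i s := by
  classical
  induction t using Finset.induction_on with
  | empty =>
    simp only [Finset.sum_empty]
    exact Poly.const 0
  | insert i t hi ih =>
    simp only [Finset.sum_insert hi]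
    exact (h i (Finset.mem_insert_self _ _)).add
      (ih fun j hj => h j (Finset.mem_insert_of_mem hj))

theorem Poly.prod {ι : Type} (t : Finset ι) {f : ι → L → L} (h : ∀ i ∈ t, Poly (f i)) :
    Poly fun s => ∏ i ∈ t, f i s := by
  classical
  induction t using Finset.induction_on with
  | empty =>
    simp only [Finset.prod_empty]
    exact Poly.const 1
  | insert i t hi ih =>
    simp only [Finset.prod_insert hi]
    exact (h i (Finset.mem_insert_self _ _)).mul
      (ih fun j hj => h j (Finset.mem_insert_of_mem hj))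

theorem Poly.map {r : L → W} (h : Poly r) (T : W →ₗ[L] W') : Poly fun s => T (r s) :=
  fun φ => h (φ ∘ₗ T)

theorem Poly.bilin [FiniteDimensional L W] [FiniteDimensional L W'] {r : L → W} {r' : L → W'}
    (h : Poly r) (h' : Poly r') (B : W →ₗ[L] W' →ₗ[L] W₂) : Poly fun s => B (r s) (r' s) := by
  let b := finBasis L W
  let b' := finBasis L W'
  have e : ∀ s, B (r s) (r' s) =
      ∑ i ∈ Finset.univ, ∑ j ∈ Finset.univ, (b.coord i (r s) * b'.coord j (r' s)) • B (b i) (b' j) := by
    intro s
    conv_lhs => rw [← b.sum_repr (r s), ← b'.sum_repr (r' s)]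
    simp only [map_sum, map_smul, LinearMap.sum_apply, LinearMap.smul_apply, Finset.smul_sum,
      smul_smul, Basis.coord_apply]
    rw [Finset.sum_comm]
    refine Finset.sum_congr rfl fun i _ => Finset.sum_congr rfl fun j _ => ?_
    rw [mul_comm]
  simp only [e]
  exact Poly.sum _ fun i _ => Poly.sum _ fun j _ =>
    ((h.map (b.coord i)).mul (h'.map (b'.coord j))).smul (Poly.const _)

/-- A polynomial function with infinitely many zeros is zero. -/
theorem Poly.eq_zero {r : L → W} (h : Poly r) {S : Set L} (hS : S.Infinite)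
    (h0 : ∀ s ∈ S, r s = 0) (s : L) : r s = 0 := by
  by_contra hne
  obtain ⟨φ, hφ⟩ : ∃ φ : Dual L W, φ (r s) ≠ 0 := by
    by_contra hcon
    push Not at hcon
    exact hne ((Module.forall_dual_apply_eq_zero_iff L (r s)).mp hcon)
  obtain ⟨p, hp⟩ := h φ
  apply hφ
  have hp0 : p = 0 := by
    apply Polynomial.eq_zero_of_infinite_isRoot
    apply hS.mono
    intro t ht
    change p.eval t = 0
    rw [← hp, h0 t ht, map_zero]
  rw [hp, hp0, eval_zero]

/-- A polynomial function which does not vanish at a point. -/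
theorem Poly.finite_zeros {f : L → L} (h : Poly f) {s₀ : L} (h0 : f s₀ ≠ 0) :
    {s | f s = 0}.Finite := by
  by_contra hinf
  exact h0 (h.eq_zero hinf (fun s hs => hs) s₀)

/-- A polynomial function with the value one at zero. -/
theorem Poly.exists_one_add {f : L → L} (h : Poly f) (h0 : f 0 = 1) :
    ∃ g : L → L, Poly g ∧ ∀ s, f s = 1 + s * g s := by
  obtain ⟨p, hp⟩ := h.exists_eval
  refine ⟨fun s => p.divX.eval s, poly_of_eval _, fun s => ?_⟩
  have h1 : p.coeff 0 = 1 := by rw [Polynomial.coeff_zero_eq_eval_zero, ← hp, h0]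
  rw [hp]
  conv_lhs => rw [← Polynomial.divX_mul_X_add p]
  rw [eval_add, eval_mul, eval_X, eval_C, h1]
  ring

theorem Poly.det {ι : Type} [Fintype ι] [DecidableEq ι] {G : L → Matrix ι ι L}
    (h : ∀ i j, Poly fun s => G s i j) : Poly fun s => (G s).det := by
  simp only [Matrix.det_apply']
  exact Poly.sum _ fun σ _ => (Poly.const _).mul (Poly.prod _ fun i _ => h _ _)

theorem Poly.adjugate {ι : Type} [Fintype ι] [DecidableEq ι] {G : L → Matrix ι ι L}
    (h : ∀ i j, Poly fun s => G s i j) (i j : ι) : Poly fun s => (G s).adjugate i j := by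
  simp only [Matrix.adjugate_apply]
  apply Poly.det
  intro i' j'
  by_cases hi : i' = j
  · subst hi
    simp only [Matrix.updateRow_self]
    exact Poly.const _
  · simp only [Matrix.updateRow_ne hi]
    exact h _ _

/-- Linear independence is an open condition. -/
theorem finite_not_linearIndependent {ι : Type} [Fintype ι] {e : L → ι → W}
    (he : ∀ i, Poly fun s => e s i) (h0 : LinearIndependent L (e 0)) :
    {s | ¬ LinearIndependent L (e s)}.Finite := by
  classical
  obtain ⟨g, hg⟩ : ∃ g : ι → Dual L W, ∀ i j, g i (e 0 j) = if i = j then 1 else 0 := by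
    let b := Basis.extend (h0.linearIndepOn_id)
    have hmem : ∀ j, e 0 j ∈ h0.linearIndepOn_id.extend (Set.subset_univ _) := fun j =>
      Basis.subset_extend _ (Set.mem_range_self j)
    refine ⟨fun i => b.coord ⟨e 0 i, hmem i⟩, fun i j => ?_⟩
    have h1 : e 0 j = b ⟨e 0 j, hmem j⟩ := by
      rw [Basis.extend_apply_self]
    rw [h1, Basis.coord_apply, Basis.repr_self, Finsupp.single_apply]
    by_cases hij : i = j
    · subst hij
      simp
    · rw [if_neg hij, if_neg]
      intro h2
      exact hij (h0.injective (congrArg Subtype.val h2)).symm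
  have hD : Poly fun s => (Matrix.of fun i j => g i (e s j)).det :=
    Poly.det fun i j => (he j).map (g i)
  have h1 : (Matrix.of fun i j => g i (e 0 j)).det ≠ 0 := by
    have : (Matrix.of fun i j => g i (e 0 j)) = (1 : Matrix ι ι L) := by
      ext i j
      rw [Matrix.of_apply, hg, Matrix.one_apply]
    rw [this, Matrix.det_one]
    exact one_ne_zero
  refine (hD.finite_zeros h1).subset ?_
  intro s hs
  by_contra hdet
  apply hs
  rw [Fintype.linearIndependent_iff]
  intro c hc
  have h2 : (Matrix.of fun i j => g i (e s j)).mulVec c = 0 := by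
    funext i
    have h3 := congrArg (g i) hc
    rw [map_sum, map_zero] at h3
    rw [Matrix.mulVec, dotProduct, Pi.zero_apply, ← h3]
    refine Finset.sum_congr rfl fun j _ => ?_
    rw [map_smul, smul_eq_mul, Matrix.of_apply, mul_comm]
  have h3 := Matrix.eq_zero_of_mulVec_eq_zero hdet h2
  intro i
  rw [h3, Pi.zero_apply]

end Vale.Agent.P011.E6I.Dfm
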